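import Mathlib

/-!
P058: a derivation of the field `ℝ` realising an infinitesimal rotation on one point of the unit circle.
-/

noncomputable section

namespace Vale.Agent.P058.Spherical

open TensorProduct

theorem exists_derivation_ne_zero : ∃ (D : Derivation ℚ ℝ ℝ) (x : ℝ), D x ≠ 0 := by
  classical
  obtain ⟨s, hs⟩ := exists_isTranscendenceBasis ℚ ℝ
  let v : s → ℝ := Subtype.val
  have hne : Nonempty s := by
    by_contra he
    rw [not_nonempty_iff] at he
    have := he
    set ℓ := liouvilleNumber ((2 : ℕ) : ℝ)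
    have hl : Transcendental ℚ ℓ := fun h =>
      transcendental_liouvilleNumber (m := 2) le_rfl ((IsFractionRing.isAlgebraic_iff ℤ ℚ ℝ).2 h)
    have hind : AlgebraicIndepOn ℚ id ({ℓ} : Set ℝ) :=
      algebraicIndependent_unique_type_iff.2 (by simpa using hl)
    have he' := hs.2 {ℓ} hind (by simp [Set.range_eq_empty])
    simp [Set.range_eq_empty] at he'
  obtain ⟨i⟩ := hne
  let S := Algebra.adjoin ℚ (Set.range v)
  let K := IntermediateField.adjoin ℚ (Set.range v)
  open scoped IntermediateField.algebraAdjoinAdjoin in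
  have : Algebra.FormallyEtale S ℝ := by
    have : Algebra.FormallyEtale S K := .of_isLocalization (nonZeroDivisors _)
    have : Algebra.IsAlgebraic K ℝ := hs.isAlgebraic_field
    have : Algebra.IsSeparable K ℝ := inferInstance
    have : Algebra.FormallyEtale K ℝ := Algebra.FormallyEtale.of_isSeparable K ℝ
    exact Algebra.FormallyEtale.comp S K ℝ
  let g : MvPolynomial s ℚ ≃ₐ[ℚ] S := hs.1.aevalEquiv
  have hg : ∀ p, (g p : ℝ) = MvPolynomial.aeval v p := fun p => by
    exact hs.1.algebraMap_aevalEquiv p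
  let d : Derivation ℚ S ℝ := Derivation.mk'
    ((MvPolynomial.aeval v).toLinearMap ∘ₗ (MvPolynomial.pderiv i).toLinearMap ∘ₗ
      g.symm.toLinearMap) (fun a b => by
      have ha : (a : ℝ) = MvPolynomial.aeval v (g.symm a) := by rw [← hg, g.apply_symm_apply]
      have hb : (b : ℝ) = MvPolynomial.aeval v (g.symm b) := by rw [← hg, g.apply_symm_apply]
      change MvPolynomial.aeval v (MvPolynomial.pderiv i (g.symm (a * b))) =
        (a : ℝ) * MvPolynomial.aeval v (MvPolynomial.pderiv i (g.symm b)) +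
          (b : ℝ) * MvPolynomial.aeval v (MvPolynomial.pderiv i (g.symm a))
      rw [map_mul, Derivation.leibniz, map_add, smul_eq_mul, smul_eq_mul, map_mul, map_mul, ha, hb])
  let L : ℝ ⊗[S] Ω[S⁄ℚ] →ₗ[ℝ] ℝ := (d.liftKaehlerDifferential).liftBaseChange ℝ
  let e := KaehlerDifferential.tensorKaehlerEquivOfFormallyEtale ℚ S ℝ
  refine ⟨(L ∘ₗ e.symm.toLinearMap).compDer (KaehlerDifferential.D ℚ ℝ),
    algebraMap S ℝ (g (MvPolynomial.X i)), ?_⟩
  have : d (g (MvPolynomial.X i)) = 1 := by simp [d]
  change L (e.symm (KaehlerDifferential.D ℚ ℝ (algebraMap S ℝ (g (MvPolynomial.X i))))) ≠ 0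
  rw [KaehlerDifferential.tensorKaehlerEquivOfFormallyEtale_symm_D_algebraMap]
  simp [L, Derivation.liftKaehlerDifferential_comp_D, this]

theorem exists_rotation_derivation :
    ∃ (D : ℝ → ℝ) (c s : ℝ),
      (∀ x y, D (x + y) = D x + D y) ∧ (∀ x y, D (x * y) = x * D y + y * D x) ∧
      (∀ q : ℚ, D q = 0) ∧ c ^ 2 + s ^ 2 = 1 ∧ D c = -s ∧ D s = c := by
  obtain ⟨D, x, hx⟩ := exists_derivation_ne_zero
  obtain ⟨n, hn⟩ := exists_nat_gt |x|
  have hn0 : (0 : ℝ) < n := lt_of_le_of_lt (abs_nonneg x) hn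
  set c := x * ((1 / n : ℚ) : ℝ) with hc
  have hDc : D c ≠ 0 := by
    have hq : D ((1 / n : ℚ) : ℝ) = 0 := D.map_algebraMap _
    rw [hc, Derivation.leibniz, hq]
    simp only [smul_eq_mul, mul_zero, zero_add]
    push_cast
    exact mul_ne_zero (by positivity) hx
  have hc1 : c ^ 2 < 1 := by
    have : |c| < 1 := by
      rw [hc, abs_mul]
      push_cast
      rw [abs_of_pos (by positivity : (0:ℝ) < 1 / n), mul_one_div, div_lt_one hn0]
      exact hn
    calc c ^ 2 = |c| ^ 2 := (sq_abs c).symm
      _ < 1 := by nlinarith [abs_nonneg c]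
  set s := Real.sqrt (1 - c ^ 2) with hs
  have hs0 : 0 < s := Real.sqrt_pos.2 (by linarith)
  have hs2 : s ^ 2 = 1 - c ^ 2 := Real.sq_sqrt (by linarith)
  have hone : c * c + s * s = 1 := by nlinarith
  have hD : 2 * (c * D c) + 2 * (s * D s) = 0 := by
    have h := congrArg D hone
    simp only [map_add, Derivation.leibniz, smul_eq_mul, Derivation.map_one_eq_zero] at h
    linarith
  set k := -s / D c with hk
  refine ⟨fun y => k * D y, c, s, fun a b => by simp [mul_add],
    fun a b => by simp only [Derivation.leibniz, smul_eq_mul]; ring,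
    fun q => by simp [show D (q : ℝ) = 0 from D.map_algebraMap q], by linarith, ?_, ?_⟩
  · show k * D c = -s
    rw [hk, div_mul_cancel₀ _ hDc]
  · show k * D s = c
    have h1 : s * D s = -(c * D c) := by linarith
    have h2 : k * D c = -s := by rw [hk, div_mul_cancel₀ _ hDc]
    refine mul_left_cancel₀ hs0.ne' ?_
    calc s * (k * D s) = k * (s * D s) := by ring
      _ = -c * (k * D c) := by rw [h1]; ring
      _ = s * c := by rw [h2]; ring

end Vale.Agent.P058.Spherical
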