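import Mathlib
import Vale.Agent.P058.Spherical.Deriv

/-!
P058: three equilateral triangles on one circle, rotated by `0, t, 2t`, with a derivation of `ℝ`
rotating `(cos t, sin t)` infinitesimally.  For every congruent copy, the weights `(1,-2,1)` applied
to `φ y = ∑ (D y_q)^2` give `6`, so colouring by `⌊φ y⌋ mod 12` avoids the configuration.
-/

noncomputable section

namespace Vale.Agent.P058.Spherical

open scoped InnerProductSpace

/-- first coordinate of the triangle -/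
def triX : Fin 3 → ℝ := ![1, -(1/2), -(1/2)]

/-- second coordinate of the triangle -/
def triY : Fin 3 → ℝ := ![0, Real.sqrt 3 / 2, -(Real.sqrt 3 / 2)]

/-- cosine of `0, t, 2t` -/
def rotC (c s : ℝ) : Fin 3 → ℝ := ![1, c, c * c + -1 * (s * s)]

/-- sine of `0, t, 2t` -/
def rotS (c s : ℝ) : Fin 3 → ℝ := ![0, s, c * s + s * c]

def ptX (c s : ℝ) (i : Fin 3 × Fin 3) : ℝ :=
  triX i.1 * rotC c s i.2 + -1 * (triY i.1 * rotS c s i.2)

def ptY (c s : ℝ) (i : Fin 3 × Fin 3) : ℝ :=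
  triX i.1 * rotS c s i.2 + triY i.1 * rotC c s i.2

def pt (c s : ℝ) (i : Fin 3 × Fin 3) : EuclideanSpace ℝ (Fin 2) :=
  !₂[ptX c s i, ptY c s i]

theorem rot_sq {c s : ℝ} (h : c ^ 2 + s ^ 2 = 1) (m : Fin 3) :
    rotC c s m ^ 2 + rotS c s m ^ 2 = 1 := by
  fin_cases m
  · simp [rotC, rotS]
  · simpa [rotC, rotS] using h
  · simp [rotC, rotS]
    linear_combination (c ^ 2 + s ^ 2 + 1) * h

theorem tri_sq (j : Fin 3) : triX j ^ 2 + triY j ^ 2 = 1 := by
  have h3 : Real.sqrt 3 ^ 2 = 3 := Real.sq_sqrt (by norm_num)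
  fin_cases j <;> simp [triX, triY] <;> nlinarith

theorem pt_norm {c s : ℝ} (h : c ^ 2 + s ^ 2 = 1) (i : Fin 3 × Fin 3) : ‖pt c s i‖ = 1 := by
  rw [EuclideanSpace.norm_eq, Real.sqrt_eq_one]
  simp only [pt, Fin.sum_univ_two, Real.norm_eq_abs, sq_abs]
  simp [ptX, ptY]
  linear_combination (triX i.1 ^ 2 + triY i.1 ^ 2) * rot_sq h i.2 + tri_sq i.1

/-- derivatives of the nine points: infinitesimal rotation by the speed `m` -/
theorem deriv_pt {D : ℝ → ℝ} (hadd : ∀ x y, D (x + y) = D x + D y)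
    (hmul : ∀ x y, D (x * y) = x * D y + y * D x) (hrat : ∀ q : ℚ, D q = 0)
    {c s : ℝ} (hc : D c = -s) (hs : D s = c) (i : Fin 3 × Fin 3) :
    D (ptX c s i) = -((i.2 : ℕ) : ℝ) * ptY c s i ∧ D (ptY c s i) = ((i.2 : ℕ) : ℝ) * ptX c s i := by
  have h0 : D 0 = 0 := by simpa using hrat 0
  have h1 : D 1 = 0 := by simpa using hrat 1
  have hm1 : D (-1) = 0 := by simpa using hrat (-1)
  have hh : D (-(1/2)) = 0 := by simpa using hrat (-(1/2))
  have h34 : D (3/4) = 0 := by simpa using hrat (3/4)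
  have hr : D (Real.sqrt 3 / 2) = 0 := by
    have h := hmul (Real.sqrt 3 / 2) (Real.sqrt 3 / 2)
    rw [show Real.sqrt 3 / 2 * (Real.sqrt 3 / 2) = 3 / 4 by
      have := Real.sq_sqrt (show (0:ℝ) ≤ 3 by norm_num); linarith [this], h34] at h
    have hp : 0 < Real.sqrt 3 / 2 := by positivity
    nlinarith
  have hr' : D (-(Real.sqrt 3 / 2)) = 0 := by
    have h := hmul (-1) (Real.sqrt 3 / 2)
    rw [hr, hm1] at h
    simpa using h
  have htx : ∀ j, D (triX j) = 0 := by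
    intro j; fin_cases j
    · exact h1
    · exact hh
    · exact hh
  have hty : ∀ j, D (triY j) = 0 := by
    intro j; fin_cases j
    · exact h0
    · exact hr
    · exact hr'
  have hrot : ∀ m : Fin 3, D (rotC c s m) = -((m : ℕ) : ℝ) * rotS c s m ∧
      D (rotS c s m) = ((m : ℕ) : ℝ) * rotC c s m := by
    intro m; fin_cases m
    · simp [rotC, rotS, h0, h1]
    · simp [rotC, rotS, hc, hs]
    · simp only [rotC, rotS, Fin.reduceFinMk, Matrix.cons_val, hadd, hmul, hm1, hc, hs]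
      constructor <;> push_cast <;> ring
  obtain ⟨hC, hS⟩ := hrot i.2
  simp only [ptX, ptY, hadd, hmul, hm1, htx, hty, hC, hS]
  constructor <;> ring

theorem pt_inner (c s : ℝ) (o a b : Fin 3 × Fin 3) :
    ⟪pt c s a - pt c s o, pt c s b - pt c s o⟫_ℝ =
      (ptX c s a - ptX c s o) * (ptX c s b - ptX c s o) +
        (ptY c s a - ptY c s o) * (ptY c s b - ptY c s o) := by
  simp [-inner_self_eq_norm_sq_to_K, PiLp.inner_apply, Fin.sum_univ_two, pt, mul_comm]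

theorem inner_sub_eq_of_dist {ι E F : Type*} [NormedAddCommGroup E] [InnerProductSpace ℝ E]
    [NormedAddCommGroup F] [InnerProductSpace ℝ F] {x : ι → E} {y : ι → F}
    (h : ∀ a b, dist (y a) (y b) = dist (x a) (x b)) (o a b : ι) :
    ⟪y a - y o, y b - y o⟫_ℝ = ⟪x a - x o, x b - x o⟫_ℝ := by
  simp only [real_inner_eq_norm_mul_self_add_norm_mul_self_sub_norm_sub_mul_self_div_two,
    sub_sub_sub_cancel_right, ← dist_eq_norm, h]

/-- every congruent copy is `u + P a + Q b` with `a`, `b` orthonormal -/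
theorem copy_frame {F : Type*} [NormedAddCommGroup F] [InnerProductSpace ℝ F] {c s : ℝ}
    {y : Fin 3 × Fin 3 → F} (h : ∀ a b, dist (y a) (y b) = dist (pt c s a) (pt c s b)) :
    ∃ u a b : F, ‖a‖ = 1 ∧ ‖b‖ = 1 ∧ ∀ i, y i = u + ptX c s i • a + ptY c s i • b := by
  set o : Fin 3 × Fin 3 := (0, 0)
  set a' : Fin 3 × Fin 3 := (1, 0)
  set b' : Fin 3 × Fin 3 := (2, 0)
  have h3 : Real.sqrt 3 ^ 2 = 3 := Real.sq_sqrt (by norm_num)
  have h30 : Real.sqrt 3 ≠ 0 := by positivity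
  set A : F := (-(1/3) : ℝ) • (y a' - y o) + (-(1/3) : ℝ) • (y b' - y o) with hA
  set B : F := (Real.sqrt 3)⁻¹ • (y a' - y o) + (-(Real.sqrt 3)⁻¹) • (y b' - y o) with hB
  have key : ∀ (p q r : ℝ) (i : Fin 3 × Fin 3),
      ‖r • (y i - y o) + p • (y a' - y o) + q • (y b' - y o)‖ ^ 2 =
        (r * (ptX c s i - 1) - 3/2 * (p + q)) ^ 2 +
          (r * ptY c s i + Real.sqrt 3 / 2 * (p - q)) ^ 2 := by
    intro p q r i
    rw [← real_inner_self_eq_norm_sq]
    simp only [inner_add_left, inner_add_right, real_inner_smul_left, real_inner_smul_right,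
      inner_sub_eq_of_dist h, pt_inner]
    have e1 : ptX c s o = 1 ∧ ptY c s o = 0 := by simp [o, ptX, ptY, triX, triY, rotC, rotS]
    have e2 : ptX c s a' = -(1/2) ∧ ptY c s a' = Real.sqrt 3 / 2 := by
      simp [a', ptX, ptY, triX, triY, rotC, rotS]
    have e3 : ptX c s b' = -(1/2) ∧ ptY c s b' = -(Real.sqrt 3 / 2) := by
      simp [b', ptX, ptY, triX, triY, rotC, rotS]
    rw [e1.1, e1.2, e2.1, e2.2, e3.1, e3.2]
    ring
  refine ⟨y o - A, A, B, ?_, ?_, fun i => ?_⟩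
  · have := key (-(1/3)) (-(1/3)) 0 o
    simp only [zero_smul, zero_add, zero_mul, ← hA] at this
    have h' : ‖A‖ ^ 2 = 1 := by rw [this]; norm_num
    nlinarith [norm_nonneg A]
  · have := key (Real.sqrt 3)⁻¹ (-(Real.sqrt 3)⁻¹) 0 o
    simp only [zero_smul, zero_add, zero_mul, ← hB] at this
    have h' : ‖B‖ ^ 2 = 1 := by
      rw [this]; field_simp; linarith
    nlinarith [norm_nonneg B]
  · have := key (1/3 * (ptX c s i - 1) - (Real.sqrt 3)⁻¹ * ptY c s i)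
      (1/3 * (ptX c s i - 1) + (Real.sqrt 3)⁻¹ * ptY c s i) 1 i
    have hz : ‖(1:ℝ) • (y i - y o) + (1/3 * (ptX c s i - 1) - (Real.sqrt 3)⁻¹ * ptY c s i) •
        (y a' - y o) + (1/3 * (ptX c s i - 1) + (Real.sqrt 3)⁻¹ * ptY c s i) • (y b' - y o)‖ ^ 2 = 0 := by
      rw [this]; field_simp; ring
    rw [sq_eq_zero_iff, norm_eq_zero] at hz
    rw [← sub_eq_zero, hA, hB]
    linear_combination (norm := module) hz

/-- the one-coordinate identity -/
theorem coord_identity {c s : ℝ} (h : c ^ 2 + s ^ 2 = 1) (du da db a b : ℝ) (m : Fin 3) :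
    ∑ j : Fin 3, (du + ptX c s (j, m) * da + ptY c s (j, m) * db
        + ((m : ℕ) : ℝ) * (ptX c s (j, m) * b - ptY c s (j, m) * a)) ^ 2 =
      3 * du ^ 2 + 3 / 2 * ((da + ((m : ℕ) : ℝ) * b) ^ 2 + (db - ((m : ℕ) : ℝ) * a) ^ 2) := by
  have h3 : Real.sqrt 3 ^ 2 = 3 := Real.sq_sqrt (by norm_num)
  have hr := rot_sq h m
  simp only [Fin.sum_univ_three, ptX, ptY, triX, triY, Matrix.cons_val]
  generalize rotC c s m = C at *
  generalize rotS c s m = S at *
  generalize ((m : ℕ) : ℝ) = k at *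
  linear_combination (((da + k * b) * S - (db - k * a) * C) ^ 2 / 2) * h3 +
    (3 / 2 * ((da + k * b) ^ 2 + (db - k * a) ^ 2)) * hr

theorem exists_spherical_colouring :
    ∃ c s : ℝ, c ^ 2 + s ^ 2 = 1 ∧ ∀ n : ℕ, ∃ col : EuclideanSpace ℝ (Fin n) → Fin 12,
      ∀ y : Fin 3 × Fin 3 → EuclideanSpace ℝ (Fin n),
        (∀ a b, dist (y a) (y b) = dist (pt c s a) (pt c s b)) → ∀ k, ∃ i, col (y i) ≠ k := by
  obtain ⟨D, c, s, hadd, hmul, hrat, h1, hc, hs⟩ := exists_rotation_derivation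
  refine ⟨c, s, h1, fun n => ?_⟩
  let φ : EuclideanSpace ℝ (Fin n) → ℝ := fun y => ∑ q, D (y q) ^ 2
  refine ⟨fun y => ((⌊φ y⌋ : ℤ) : ZMod 12), fun y hy k => ?_⟩
  by_contra hk
  push Not at hk
  obtain ⟨u, a, b, ha, hb, hy'⟩ := copy_frame hy
  have hD : ∀ j m q, D (y (j, m) q) = D (u q) + ptX c s (j, m) * D (a q) + ptY c s (j, m) * D (b q)
      + ((m : ℕ) : ℝ) * (ptX c s (j, m) * b q - ptY c s (j, m) * a q) := by
    intro j m q
    obtain ⟨hX, hY⟩ := deriv_pt hadd hmul hrat hc hs (j, m)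
    rw [hy']
    simp only [PiLp.add_apply, PiLp.smul_apply, smul_eq_mul, hadd, hmul, hX, hY]
    ring
  have hsum : ∑ j : Fin 3, (φ (y (j, 0)) - 2 * φ (y (j, 1)) + φ (y (j, 2))) = 6 := by
    have e : ∀ v : EuclideanSpace ℝ (Fin n), ‖v‖ = 1 → ∑ q, v q ^ 2 = 1 := fun v hv => by
      rw [← EuclideanSpace.real_norm_sq_eq, hv, one_pow]
    calc ∑ j : Fin 3, (φ (y (j, 0)) - 2 * φ (y (j, 1)) + φ (y (j, 2)))
        = ∑ q, ((∑ j : Fin 3, D (y (j, 0) q) ^ 2) - 2 * (∑ j : Fin 3, D (y (j, 1) q) ^ 2)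
            + ∑ j : Fin 3, D (y (j, 2) q) ^ 2) := by
          simp only [φ, Finset.sum_add_distrib, Finset.sum_sub_distrib, Finset.mul_sum]
          rw [Finset.sum_comm (γ := Fin n), Finset.sum_comm (γ := Fin n), Finset.sum_comm (γ := Fin n)]
      _ = ∑ q, 3 * (a q ^ 2 + b q ^ 2) := by
          refine Finset.sum_congr rfl fun q _ => ?_
          simp only [hD, coord_identity h1]
          norm_num
          ring
      _ = 6 := by
          rw [← Finset.mul_sum, Finset.sum_add_distrib, e a ha, e b hb]; norm_num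
  have hmod : ∀ i, ∃ z : ℤ, ⌊φ (y i)⌋ = ⌊φ (y (0, 0))⌋ + 12 * z := by
    intro i
    have hh : ((⌊φ (y (0, 0))⌋ : ℤ) : ZMod 12) = ((⌊φ (y i)⌋ : ℤ) : ZMod 12) :=
      (hk (0, 0)).trans (hk i).symm
    obtain ⟨z, hz⟩ := (ZMod.intCast_eq_intCast_iff_dvd_sub _ _ _).1 hh
    exact ⟨z, by push_cast at hz; omega⟩
  choose z hz using hmod
  simp only [Fin.sum_univ_three] at hsum
  have hi : ∀ i, φ (y i) = (⌊φ (y (0, 0))⌋ : ℝ) + 12 * (z i : ℝ) + Int.fract (φ (y i)) := by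
    intro i
    conv_lhs => rw [← Int.floor_add_fract (φ (y i)), hz i]
    push_cast; ring
  set Z : ℤ := z (0,0) - 2 * z (0,1) + z (0,2) + (z (1,0) - 2 * z (1,1) + z (1,2))
    + (z (2,0) - 2 * z (2,1) + z (2,2)) with hZ
  have hb := fun i => And.intro (Int.fract_nonneg (φ (y i))) (Int.fract_lt_one (φ (y i)))
  have eZ : (Z : ℝ) = z (0,0) - 2 * z (0,1) + z (0,2) + (z (1,0) - 2 * z (1,1) + z (1,2))
    + (z (2,0) - 2 * z (2,1) + z (2,2)) := by rw [hZ]; push_cast; ring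
  have hlow : (0 : ℝ) < Z := by
    linarith [hi (0,0), hi (0,1), hi (0,2), hi (1,0), hi (1,1), hi (1,2), hi (2,0), hi (2,1), hi (2,2),
      (hb (0,0)).2, (hb (1,0)).2, (hb (2,0)).2, (hb (0,2)).2, (hb (1,2)).2, (hb (2,2)).2,
      (hb (0,1)).1, (hb (1,1)).1, (hb (2,1)).1]
  have hup : (Z : ℝ) < 1 := by
    linarith [hi (0,0), hi (0,1), hi (0,2), hi (1,0), hi (1,1), hi (1,2), hi (2,0), hi (2,1), hi (2,2),
      (hb (0,0)).1, (hb (1,0)).1, (hb (2,0)).1, (hb (0,2)).1, (hb (1,2)).1, (hb (2,2)).1,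
      (hb (0,1)).2, (hb (1,1)).2, (hb (2,1)).2]
  have : (0 : ℤ) < Z := by exact_mod_cast hlow
  have : Z < 1 := by exact_mod_cast hup
  omega

end Vale.Agent.P058.Spherical
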